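import Vale.Agent.P084.Strict.Centre

/-!
A surjective isometry of closed unit balls fixing the centre is the restriction of a linear map.
-/

open Set Metric

namespace Vale.Agent.P084.Slice

open Vale.Agent.P084.Strict

variable {X Y : Type*} [NormedAddCommGroup X] [NormedSpace ℝ X]
  [NormedAddCommGroup Y] [NormedSpace ℝ Y]

/-- The metric midpoints of two points. -/
def Mid (a b : X) : Set X := {z | ‖z - a‖ = ‖a - b‖ / 2 ∧ ‖z - b‖ = ‖a - b‖ / 2}

omit [NormedSpace ℝ X] in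
theorem mid_flip {a b z : X} (hz : z ∈ Mid a b) : a + b - z ∈ Mid a b :=
  ⟨by rw [show a + b - z - a = b - z by abel, norm_sub_rev]; exact hz.2,
    by rw [show a + b - z - b = a - z by abel, norm_sub_rev]; exact hz.1⟩

theorem centre_mem_mid (a b : X) : (2 : ℝ)⁻¹ • (a + b) ∈ Mid a b := by
  have h : ∀ c e : X, ‖(2 : ℝ)⁻¹ • (c + e) - c‖ = ‖c - e‖ / 2 := fun c e => by
    rw [show (2 : ℝ)⁻¹ • (c + e) - c = (2 : ℝ)⁻¹ • (e - c) by module, norm_smul,
      norm_sub_rev e c, norm_inv, Real.norm_two]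
    ring
  exact ⟨h a b, by rw [add_comm, h b a, norm_sub_rev]⟩

/-- Reflection of the midpoints in the middle. -/
def midRefl (a b : X) : Mid a b ≃ᵢ Mid a b where
  toFun z := ⟨a + b - z.1, mid_flip z.2⟩
  invFun z := ⟨a + b - z.1, mid_flip z.2⟩
  left_inv z := by ext; simp
  right_inv z := by ext; simp
  isometry_toFun := Isometry.of_dist_eq fun p q => by
    simp only [Subtype.dist_eq, dist_eq_norm, sub_sub_sub_cancel_left, norm_sub_rev]

variable {r : X → Y}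

/-- Midpoints are preserved when all metric midpoints stay in the ball. -/
theorem map_mid (hiso : ∀ u v, ‖u‖ ≤ 1 → ‖v‖ ≤ 1 → ‖r u - r v‖ = ‖u - v‖)
    (hn : ∀ u, ‖u‖ ≤ 1 → ‖r u‖ = ‖u‖) (hs : ∀ y, ‖y‖ ≤ 1 → ∃ u, ‖u‖ ≤ 1 ∧ r u = y)
    {a b : X} (hab : ‖a‖ + ‖a - b‖ / 2 ≤ 1) (hb : ‖b‖ ≤ 1) :
    r ((2 : ℝ)⁻¹ • (a + b)) = (2 : ℝ)⁻¹ • (r a + r b) := by
  have ha : ‖a‖ ≤ 1 := by linarith [norm_nonneg (a - b)]
  have hin : ∀ z ∈ Mid a b, ‖z‖ ≤ 1 := fun z hz => by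
    have h := norm_le_norm_add_norm_sub' z a
    rw [hz.1] at h
    linarith
  have hab' : ‖r a - r b‖ = ‖a - b‖ := hiso a b ha hb
  have hmem : ∀ z : Mid a b, r z.1 ∈ Mid (r a) (r b) := fun z =>
    ⟨by rw [hiso _ _ (hin _ z.2) ha, hab']; exact z.2.1,
      by rw [hiso _ _ (hin _ z.2) hb, hab']; exact z.2.2⟩
  have hbij : ∀ w : Mid (r a) (r b), ∃ z : Mid a b, r z.1 = w.1 := fun w => by
    have hw : ‖w.1‖ ≤ 1 := by
      have h := norm_le_norm_add_norm_sub' w.1 (r a)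
      rw [w.2.1, hab', hn a ha] at h
      linarith
    obtain ⟨u, hu, huw⟩ := hs w.1 hw
    refine ⟨⟨u, ?_, ?_⟩, huw⟩
    · rw [← hiso u a hu ha, huw, ← hab']; exact w.2.1
    · rw [← hiso u b hu hb, huw, ← hab']; exact w.2.2
  have hdist : Isometry (fun z : Mid a b => (⟨r z.1, hmem z⟩ : Mid (r a) (r b))) :=
    Isometry.of_dist_eq fun p q => by
      simp only [Subtype.dist_eq, dist_eq_norm, hiso _ _ (hin _ p.2) (hin _ q.2)]
  let e : Mid a b ≃ᵢ Mid (r a) (r b) :=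
    { Equiv.ofBijective _ ⟨hdist.injective, fun w => by
        obtain ⟨z, hz⟩ := hbij w
        exact ⟨z, Subtype.ext hz⟩⟩ with
      isometry_toFun := hdist }
  let m : Mid a b := ⟨_, centre_mem_mid a b⟩
  set o : Mid a b → ℝ := fun z => ‖z.1 - (2 : ℝ)⁻¹ • (a + b)‖ with ho
  have hD : ∀ p q : Mid a b, dist p q ≤ 2 := fun p q => by
    rw [Subtype.dist_eq, dist_eq_norm]
    linarith [norm_sub_le p.1 q.1, hin _ p.2, hin _ q.2]
  have h := centre_invariant hD (midRefl a b) o (fun z => Subtype.ext (sub_sub_cancel _ z.1))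
    (fun z => by
      rw [Subtype.dist_eq, dist_eq_norm]
      show 2 * ‖z.1 - (2 : ℝ)⁻¹ • (a + b)‖ = ‖z.1 - (a + b - z.1)‖
      rw [show z.1 - (a + b - z.1) = (2 : ℝ) • (z.1 - (2 : ℝ)⁻¹ • (a + b)) by module, norm_smul,
        Real.norm_two])
    (fun p q => by
      rw [Subtype.dist_eq, dist_eq_norm]
      have := norm_sub_le_norm_sub_add_norm_sub p.1 ((2 : ℝ)⁻¹ • (a + b)) q.1
      rw [norm_sub_rev ((2 : ℝ)⁻¹ • (a + b)) q.1] at this
      exact this)
    ((e.trans (midRefl (r a) (r b))).trans e.symm) m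
  have hm : o m = 0 := by simp [ho, m]
  rw [hm] at h
  have hfix : (e.trans (midRefl (r a) (r b))).trans e.symm m = m :=
    Subtype.ext (sub_eq_zero.1 (norm_eq_zero.1 h))
  have h' : midRefl (r a) (r b) (e m) = e m := by
    have := congrArg e hfix
    simpa using this
  have h'' : r a + r b - r ((2 : ℝ)⁻¹ • (a + b)) = r ((2 : ℝ)⁻¹ • (a + b)) :=
    congrArg Subtype.val h'
  rw [← sub_eq_zero] at h'' ⊢
  rw [← smul_eq_zero_iff_right (r := (-2 : ℝ)) (by norm_num), ← h'']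
  module

/-- A centre fixing surjective isometry of closed unit balls is linear. -/
theorem exists_linear (hiso : ∀ u v, ‖u‖ ≤ 1 → ‖v‖ ≤ 1 → ‖r u - r v‖ = ‖u - v‖)
    (hn : ∀ u, ‖u‖ ≤ 1 → ‖r u‖ = ‖u‖) (hs : ∀ y, ‖y‖ ≤ 1 → ∃ u, ‖u‖ ≤ 1 ∧ r u = y) :
    ∃ L : X →ₗ[ℝ] Y, ∀ u, ‖u‖ ≤ 1 → r u = L u := by
  have h0 : r 0 = 0 := norm_eq_zero.1 (by rw [hn 0 (by simp), norm_zero])
  have hhalf : ∀ u, ‖u‖ ≤ 1 → r ((2 : ℝ)⁻¹ • u) = (2 : ℝ)⁻¹ • r u := fun u hu => by
    have := map_mid hiso hn hs (a := 0) (b := u)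
      (by rw [norm_zero, zero_sub, norm_neg]; linarith [norm_nonneg u]) hu
    rwa [zero_add, h0, zero_add] at this
  have hsm : ∀ (n : ℕ) u, ‖u‖ ≤ 1 → r (((2 : ℝ)⁻¹) ^ n • u) = ((2 : ℝ)⁻¹) ^ n • r u := by
    intro n
    induction n with
    | zero => intro u _; simp
    | succ n ih =>
      intro u hu
      have hle : ‖((2 : ℝ)⁻¹) ^ n • u‖ ≤ 1 := by
        rw [norm_smul, Real.norm_of_nonneg (by positivity)]
        exact mul_le_one₀ (pow_le_one₀ (by norm_num) (by norm_num)) (norm_nonneg u) hu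
      rw [pow_succ', mul_smul, hhalf _ hle, ih u hu, smul_smul]
  have hadd : ∀ a b, ‖a‖ ≤ 3⁻¹ → ‖b‖ ≤ 3⁻¹ → r (a + b) = r a + r b := fun a b ha hb => by
    have h1 := map_mid hiso hn hs (a := a) (b := b) (by linarith [norm_sub_le a b]) (by linarith)
    have h2 := hhalf (a + b) (by linarith [norm_add_le a b])
    rw [h2] at h1
    exact smul_right_injective Y (inv_ne_zero (two_ne_zero (α := ℝ))) h1
  set J : ℕ → X → Y := fun n x => ((2 : ℝ) ^ n) • r (((2 : ℝ)⁻¹) ^ n • x) with hJ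
  have hsmall : ∀ {n : ℕ} {x : X} {c : ℝ}, ‖x‖ ≤ c * 2 ^ n → ‖((2 : ℝ)⁻¹) ^ n • x‖ ≤ c := by
    intro n x c h
    rw [norm_smul, Real.norm_of_nonneg (by positivity), inv_pow, inv_mul_le_iff₀ (by positivity)]
    linarith
  have hindep : ∀ {n k : ℕ} {x : X}, ‖x‖ ≤ 2 ^ n → J (n + k) x = J n x := by
    intro n k x hx
    simp only [hJ, pow_add, mul_smul]
    rw [smul_comm (((2 : ℝ)⁻¹) ^ n), hsm k _ (hsmall (by rw [one_mul]; exact hx)),
      smul_smul ((2 : ℝ) ^ k), inv_pow, mul_inv_cancel₀ (by positivity), one_smul]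
  choose N hN using fun x : X => pow_unbounded_of_one_lt (3 * ‖x‖) (one_lt_two (α := ℝ))
  set L : X → Y := fun x => J (N x) x with hL
  have hLJ : ∀ {x : X} {n : ℕ}, ‖x‖ ≤ 2 ^ n → L x = J n x := by
    intro x n hx
    have hx' : ‖x‖ ≤ 2 ^ N x := by linarith [hN x, norm_nonneg x]
    simp only [hL]
    rw [← hindep (k := n) hx', ← hindep (k := N x) hx, add_comm]
  have hLadd : ∀ a b, L (a + b) = L a + L b := by
    intro a b
    obtain ⟨n, hn'⟩ := pow_unbounded_of_one_lt (3 * (‖a‖ + ‖b‖)) (one_lt_two (α := ℝ))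
    have h1 := norm_add_le a b
    rw [hLJ (n := n) (by linarith [norm_nonneg a, norm_nonneg b]),
      hLJ (n := n) (by linarith [norm_nonneg a, norm_nonneg b]),
      hLJ (n := n) (by linarith [norm_nonneg a, norm_nonneg b])]
    simp only [hJ]
    rw [smul_add, hadd _ _ (hsmall (by linarith [norm_nonneg b]))
      (hsmall (by linarith [norm_nonneg a])), smul_add]
  have hLn : ∀ x, ‖L x‖ = ‖x‖ := by
    intro x
    have hx' : ‖((2 : ℝ)⁻¹) ^ N x • x‖ ≤ 1 :=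
      hsmall (by linarith [hN x, norm_nonneg x])
    simp only [hL, hJ]
    rw [norm_smul, hn _ hx', norm_smul, ← mul_assoc, ← norm_mul, ← mul_pow,
      mul_inv_cancel₀ two_ne_zero, one_pow, norm_one, one_mul]
  let A : X →+ Y := AddMonoidHom.mk' L hLadd
  have hAc : Continuous A := AddMonoidHomClass.continuous_of_bound A 1 fun x => by
    rw [one_mul]; exact (hLn x).le
  refine ⟨(A.toRealLinearMap hAc).toLinearMap, fun u hu => ?_⟩
  show r u = L u
  rw [hLJ (n := 0) (by simpa using hu)]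
  simp [hJ]

end Vale.Agent.P084.Slice
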