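import Mathlib

/-!
Norms splitting off a line in the `p`-th power sense: segments of spheres, and recovery of the
norm from the distances to one point.
-/

open Set Filter Topology

namespace Vale.Agent.P084.Slice

/-- The norm is the `p`-sum of the coordinate `χ` along `N` and the rest. -/
structure Split {X : Type*} [NormedAddCommGroup X] [NormedSpace ℝ X] (p : ℝ) (N : X)
    (χ : X →ₗ[ℝ] ℝ) : Prop where
  one : χ N = 1
  unit : ‖N‖ = 1
  eq : ∀ x, ‖x‖ ^ p = ‖x - χ x • N‖ ^ p + |χ x| ^ p

variable {X : Type*} [NormedAddCommGroup X] [NormedSpace ℝ X] {p : ℝ} {N : X} {χ : X →ₗ[ℝ] ℝ}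

theorem Split.neg (h : Split p N χ) : Split p (-N) (-χ) :=
  ⟨by simp [h.one], by simp [h.unit], fun x => by simpa using h.eq x⟩

theorem Split.abs_le (h : Split p N χ) (hp : 1 < p) (x : X) : |χ x| ≤ ‖x‖ := by
  refine (Real.rpow_le_rpow_iff (abs_nonneg _) (norm_nonneg x) (by linarith : 0 < p)).1 ?_
  rw [h.eq x]
  linarith [Real.rpow_nonneg (norm_nonneg (x - χ x • N)) p]

theorem Split.eq_of_coord (h : Split p N χ) {t : X} (ht : χ t = 0) (s : ℝ) :
    ‖t + s • N‖ ^ p = ‖t‖ ^ p + |s| ^ p := by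
  rw [h.eq (t + s • N)]
  simp [ht, h.one]

theorem abs_avg_rpow_le (hp : 1 < p) {α β : ℝ} (hne : α ≠ β) :
    |(α + β) / 2| ^ p < (|α| ^ p + |β| ^ p) / 2 := by
  rcases eq_or_ne |α| |β| with h | h
  · rcases abs_eq_abs.1 h with h' | h'
    · exact absurd h' hne
    · have hb : β ≠ 0 := fun hb => hne (by rw [h', hb, neg_zero])
      rw [h', neg_add_cancel, zero_div, abs_zero, Real.zero_rpow (by linarith), abs_neg]
      have := Real.rpow_pos_of_pos (abs_pos.2 hb) p
      linarith
  · have h1 := (strictConvexOn_rpow hp).2 (abs_nonneg α) (abs_nonneg β) h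
      (by norm_num : (0 : ℝ) < 1 / 2) (by norm_num : (0 : ℝ) < 1 / 2) (by norm_num)
    simp only [smul_eq_mul] at h1
    have h2 : |(α + β) / 2| ^ p ≤ (1 / 2 * |α| + 1 / 2 * |β|) ^ p := by
      refine Real.rpow_le_rpow (abs_nonneg _) ?_ (by linarith)
      rw [abs_div, abs_two]
      linarith [abs_add_le α β]
    linarith

/-- Segments in spheres are orthogonal to the split coordinate. -/
theorem Split.segment (h : Split p N χ) (hp : 1 < p) {a b : X} {μ : ℝ} (ha : ‖a‖ = μ)
    (hb : ‖b‖ = μ) (hab : ‖a + b‖ = 2 * μ) : χ a = χ b := by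
  by_contra hne
  set m := (2 : ℝ)⁻¹ • (a + b) with hm
  have hmn : ‖m‖ = μ := by rw [hm, norm_smul, hab, norm_inv, Real.norm_two]; ring
  have hmχ : χ m = (χ a + χ b) / 2 := by simp [hm]; ring
  have e : m - χ m • N = (2 : ℝ)⁻¹ • ((a - χ a • N) + (b - χ b • N)) := by
    rw [hmχ, hm]; module
  set A := ‖a - χ a • N‖
  set B := ‖b - χ b • N‖
  have hA : 0 ≤ A := norm_nonneg _
  have hB : 0 ≤ B := norm_nonneg _
  have h1 : ‖m - χ m • N‖ ^ p ≤ (A ^ p + B ^ p) / 2 := by
    have hle : ‖m - χ m • N‖ ≤ 1 / 2 * A + 1 / 2 * B := by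
      rw [e, norm_smul, norm_inv, Real.norm_two]
      linarith [norm_add_le (a - χ a • N) (b - χ b • N)]
    have hc := (convexOn_rpow hp.le).2 hA hB (by norm_num : (0 : ℝ) ≤ 1 / 2)
      (by norm_num : (0 : ℝ) ≤ 1 / 2) (by norm_num)
    simp only [smul_eq_mul] at hc
    have := Real.rpow_le_rpow (norm_nonneg _) hle (by linarith : 0 ≤ p)
    linarith
  have h2 : |χ m| ^ p < (|χ a| ^ p + |χ b| ^ p) / 2 := by
    rw [hmχ]; exact abs_avg_rpow_le hp hne
  have k0 := h.eq m
  have k1 := h.eq a
  have k2 := h.eq b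
  rw [hmn] at k0
  rw [ha] at k1
  rw [hb] at k2
  linarith

variable {Y : Type*} [NormedAddCommGroup Y] [NormedSpace ℝ Y] {Λ : Y →ₗ[ℝ] ℝ} {y₀ : Y}

/-- The distances to one pole determine the norm. -/
theorem split_of_pole (hp : 1 < p) (h1 : Λ y₀ = 1) (hn : ‖y₀‖ = 1) (hle : ∀ y, |Λ y| ≤ ‖y‖)
    (hc : ∀ y, ‖y - ‖y‖ • y₀‖ ^ p = ‖y‖ ^ p - |Λ y| ^ p + (‖y‖ - Λ y) ^ p) :
    Split p y₀ Λ := by
  have hp0 : 0 < p := by linarith
  set n : Y → ℝ → ℝ := fun b u => ‖b + u • y₀‖ with hndef
  have hΛ : ∀ b, Λ b = 0 → ∀ u, Λ (b + u • y₀) = u := fun b hb u => by simp [hb, h1]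
  have hnu : ∀ b, Λ b = 0 → ∀ u, |u| ≤ n b u := fun b hb u => by
    have := hle (b + u • y₀)
    rwa [hΛ b hb] at this
  have hinv : ∀ b, Λ b = 0 → ∀ u,
      n b (u - n b u) ^ p - |u - n b u| ^ p = n b u ^ p - |u| ^ p := by
    intro b hb u
    have h := hc (b + u • y₀)
    rw [hΛ b hb, show b + u • y₀ - ‖b + u • y₀‖ • y₀ = b + (u - n b u) • y₀ by
      simp only [hndef]; module] at h
    have hneg : |u - n b u| = n b u - u := by
      rw [abs_of_nonpos (by linarith [le_abs_self u, hnu b hb u])]; ring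
    rw [hneg]
    change n b (u - n b u) ^ p = n b u ^ p - |u| ^ p + (n b u - u) ^ p at h
    linarith
  have hcont : ∀ b, Continuous fun u => n b u ^ p - |u| ^ p := fun b => by
    simp only [hndef]
    exact ((continuous_const.add (continuous_id.smul continuous_const)).norm.rpow_const
      fun _ => Or.inr hp0.le).sub (continuous_abs.rpow_const fun _ => Or.inr hp0.le)
  have htop : ∀ b, Λ b = 0 →
      Tendsto (fun u => n b u ^ p - |u| ^ p) atTop (𝓝 (‖b‖ ^ p)) := by
    intro b hb
    have hε : Tendsto (fun u => u - n b u) atTop (𝓝 0) := by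
      have hlim : Tendsto (fun u : ℝ => (2 * ‖b‖) ^ p / p * u ^ (-(p - 1))) atTop (𝓝 0) := by
        simpa using (tendsto_rpow_neg_atTop (by linarith : 0 < p - 1)).const_mul
          ((2 * ‖b‖) ^ p / p)
      refine squeeze_zero_norm' ?_ hlim
      filter_upwards [eventually_gt_atTop (0 : ℝ)] with u hu
      set ε := n b u - u with hεdef
      have hu' := hnu b hb u
      rw [abs_of_pos hu] at hu'
      have hε0 : 0 ≤ ε := by linarith
      have hεb : ε ≤ ‖b‖ := by
        have h := norm_add_le b (u • y₀)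
        rw [norm_smul, hn, mul_one, Real.norm_of_nonneg hu.le] at h
        simp only [hεdef, hndef]
        linarith
      have hub : n b (u - n b u) ≤ 2 * ‖b‖ := by
        refine (norm_add_le _ _).trans ?_
        rw [norm_smul, hn, mul_one, Real.norm_eq_abs,
          show u - n b u = -ε by rw [hεdef]; ring, abs_neg, abs_of_nonneg hε0]
        linarith
      have hup := Real.rpow_le_rpow (norm_nonneg _) hub hp0.le
      have hinv' := hinv b hb u
      have hber : u ^ p * (1 + p * (ε / u)) ≤ n b u ^ p := by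
        rw [show n b u = u * (1 + ε / u) by rw [hεdef]; field_simp; ring,
          Real.mul_rpow hu.le (by positivity)]
        exact mul_le_mul_of_nonneg_left (one_add_mul_self_le_rpow_one_add
          (le_trans (by norm_num) (div_nonneg hε0 hu.le)) hp.le) (Real.rpow_nonneg hu.le p)
      rw [abs_of_pos hu] at hinv'
      have hkey : p * (u ^ (p - 1) * ε) ≤ (2 * ‖b‖) ^ p := by
        have e : u ^ p * (1 + p * (ε / u)) = u ^ p + p * (u ^ (p - 1) * ε) := by
          rw [Real.rpow_sub_one hu.ne']; field_simp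
        linarith [Real.rpow_nonneg (abs_nonneg (u - n b u)) p]
      rw [Real.norm_eq_abs, show u - n b u = -ε by rw [hεdef]; ring, abs_neg, abs_of_nonneg hε0,
        Real.rpow_neg hu.le, ← div_eq_mul_inv, le_div_iff₀ (Real.rpow_pos_of_pos hu _),
        le_div_iff₀ hp0]
      linarith
    have hz := ((hcont b).tendsto 0).comp hε
    rw [abs_zero, Real.zero_rpow hp0.ne', sub_zero] at hz
    have e0 : n b 0 = ‖b‖ := by simp [hndef]
    rw [e0] at hz
    exact hz.congr fun u => hinv b hb u
  refine ⟨h1, hn, fun y => ?_⟩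
  set b := y - Λ y • y₀ with hbdef
  have hb : Λ b = 0 := by simp [hbdef, h1]
  have hyb : y = b + Λ y • y₀ := by rw [hbdef]; module
  rcases eq_or_ne b 0 with h0 | h0
  · rw [h0, norm_zero, Real.zero_rpow hp0.ne', zero_add]
    conv_lhs => rw [hyb, h0, zero_add, norm_smul, hn, mul_one, Real.norm_eq_abs]
  set seq : ℕ → ℝ := fun k => (fun u => u - n b u)^[k] (Λ y) with hseq
  have hstep : ∀ k, seq (k + 1) = seq k - n b (seq k) := fun k => by
    simp only [hseq, Function.iterate_succ_apply']
  have hbelow : ∀ k : ℕ, seq k ≤ Λ y - k * (‖b‖ / 2) := by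
    intro k
    induction k with
    | zero => simp [hseq]
    | succ k ih =>
      have hlow : ‖b‖ / 2 ≤ n b (seq k) := by
        have h := norm_sub_le (b + seq k • y₀) (seq k • y₀)
        rw [add_sub_cancel_right, norm_smul, hn, mul_one, Real.norm_eq_abs] at h
        have := hnu b hb (seq k)
        simp only [hndef] at this ⊢
        linarith
      rw [hstep]
      push_cast
      linarith
  have hconst : ∀ k, n b (seq k) ^ p - |seq k| ^ p = n b (Λ y) ^ p - |Λ y| ^ p := by
    intro k
    induction k with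
    | zero => rfl
    | succ k ih => rw [hstep, hinv b hb, ih]
  have hbot : Tendsto (fun k => -seq k) atTop atTop := by
    refine tendsto_atTop_mono (fun k => neg_le_neg (hbelow k)) ?_
    have h := (tendsto_natCast_atTop_atTop (R := ℝ)).atTop_mul_const
      (show 0 < ‖b‖ / 2 by positivity)
    exact (tendsto_atTop_add_const_left atTop (-Λ y) h).congr fun k => by ring
  have hb' : Λ (-b) = 0 := by rw [map_neg, hb, neg_zero]
  have hflip : ∀ u, n (-b) (-u) = n b u := fun u => by
    simp only [hndef]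
    rw [show -b + -u • y₀ = -(b + u • y₀) by module, norm_neg]
  have hlim : Tendsto (fun k => n b (seq k) ^ p - |seq k| ^ p) atTop (𝓝 (‖b‖ ^ p)) := by
    have h := (htop (-b) hb').comp hbot
    rw [norm_neg] at h
    refine h.congr fun k => ?_
    simp only [Function.comp_apply, hflip, abs_neg]
  have hfin := tendsto_nhds_unique hlim (tendsto_const_nhds.congr fun k => (hconst k).symm)
  have e : n b (Λ y) = ‖y‖ := by
    simp only [hndef]
    rw [← hyb]
  rw [e] at hfin
  linarith

end Vale.Agent.P084.Slice
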