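import Vale.Agent.P084.Gen.Engine
import Vale.Agent.P084.Strict.Main
import Vale.Agent.P084.Slice.Ball
import Vale.Agent.P084.Slice.Norm

/-!
A space splitting off a line in the `p`-th power sense has the Mazur-Ulam property.
-/

open Set Metric Module

namespace Vale.Agent.P084.Slice

open Vale.Agent.P084.Strict

/-- The engine in infinite dimension. -/
theorem linear_of_triangle_space {V : Type*} [NormedAddCommGroup V] [NormedSpace ℝ V]
    (hinf : ¬ FiniteDimensional ℝ V) {G : V → ℝ} {K : NNReal} (hGl : LipschitzWith K G)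
    (hG : ∀ (t : ℝ) x, 0 ≤ t → G (t • x) = t * G x)
    (htri : ∀ a b : V, ‖a‖ = 1 → ‖b‖ = 1 → ‖a - b‖ = 1 → G (a - b) = G a - G b) :
    ∃ Λ : V →ₗ[ℝ] ℝ, ∀ x, G x = Λ x := by
  have key : ∀ a b : V, G (a + b) = G a + G b ∧ ∀ t : ℝ, G (t • a) = t * G a := by
    intro a b
    obtain ⟨E, hE, hdim, ha, hb⟩ := exists_submodule hinf a b
    obtain ⟨L, hL⟩ := Gen.linear_of_triangle (E := E) hdim (G := fun x => G (x : V))
      (hGl.comp E.subtypeₗᵢ.lipschitz) (fun t x ht => hG t x ht)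
      (fun x y hx hy hxy => htri x y hx hy hxy)
    constructor
    · have h := map_add L ⟨a, ha⟩ ⟨b, hb⟩
      rw [← hL, ← hL, ← hL] at h
      exact h
    · intro t
      have h := map_smul L t (⟨a, ha⟩ : E)
      rw [← hL, ← hL] at h
      exact h
  exact ⟨{ toFun := G
           map_add' := fun a b => (key a b).1
           map_smul' := fun t a => (key a 0).2 t }, fun x => rfl⟩

variable {X Y : Type*} [NormedAddCommGroup X] [NormedSpace ℝ X]
  [NormedAddCommGroup Y] [NormedSpace ℝ Y] {p : ℝ} {N : X} {χ : X →ₗ[ℝ] ℝ}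

/-- The split coordinate of the inverse map is additive on unit equilateral triangles. -/
theorem coord_triangle (hsp : Split p N χ) (hp : 1 < p) {Q : Y → X}
    (hQ : ∀ u, ‖u‖ = 1 → ‖Q u‖ = 1) (hsurj : ∀ x, ‖x‖ = 1 → ∃ u, ‖u‖ = 1 ∧ Q u = x)
    (hiso : ∀ u v, ‖u‖ = 1 → ‖v‖ = 1 → ‖Q u - Q v‖ = ‖u - v‖)
    {x z : Y} (hx : ‖x‖ = 1) (hz : z ∈ Apex x) : χ (Q (x - z)) = χ (Q x) - χ (Q z) := by
  have hw : x - z ∈ Apex x := apex_flip hz
  have h1 := norm_median hQ hsurj hiso hx hz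
  have h2 := norm_median hQ hsurj hiso hx hw
  have h3 : ‖(2 : ℝ) • (x - z) - x‖ = ‖(2 : ℝ) • z - x‖ := by
    rw [← norm_neg]; congr 1; module
  have h4 : ‖Q (x - z) - Q z‖ = ‖(2 : ℝ) • z - x‖ := by
    rw [hiso _ _ hw.1 hz.1, ← norm_neg]; congr 1; module
  have hsum : ‖(Q x - (2 : ℝ) • Q z) + ((2 : ℝ) • Q (x - z) - Q x)‖
      = 2 * ‖(2 : ℝ) • z - x‖ := by
    rw [show (Q x - (2 : ℝ) • Q z) + ((2 : ℝ) • Q (x - z) - Q x)
      = (2 : ℝ) • (Q (x - z) - Q z) by module, norm_smul, h4, Real.norm_two]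
  have h := hsp.segment hp (by rw [norm_sub_rev]; exact h1) (h2.trans h3) hsum
  simp only [map_sub, map_smul, smul_eq_mul] at h
  linarith

/-- The half of the sphere on one side of the slice is mapped linearly. -/
theorem exists_half (hp : 1 < p) (hsp : Split p N χ) {Λ : Y →ₗ[ℝ] ℝ} {y₀ : Y}
    (hspY : Split p y₀ Λ) {F : X → Y} (hn : ∀ u, ‖u‖ = 1 → ‖F u‖ = 1)
    (hsurj : ∀ y, ‖y‖ = 1 → ∃ u, ‖u‖ = 1 ∧ F u = y)
    (hiso : ∀ u v, ‖u‖ = 1 → ‖v‖ = 1 → ‖F u - F v‖ = ‖u - v‖)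
    (hΛ : ∀ u, ‖u‖ = 1 → Λ (F u) = χ u) :
    ∃ L : LinearMap.ker χ →ₗ[ℝ] LinearMap.ker Λ, ∀ x, ‖x‖ = 1 → 0 ≤ χ x →
      ∀ t : LinearMap.ker χ, (t : X) = x - χ x • N → F x = (L t : Y) + χ x • y₀ := by
  have hp0 : 0 < p := by linarith
  set s : LinearMap.ker χ → ℝ := fun t => (1 - ‖t‖ ^ p) ^ p⁻¹ with hs
  set P : LinearMap.ker χ → X := fun t => (t : X) + s t • N with hP
  have hsp' : ∀ t : LinearMap.ker χ, ‖t‖ ≤ 1 → 0 ≤ s t ∧ s t ^ p = 1 - ‖t‖ ^ p := fun t ht => by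
    have h : 0 ≤ 1 - ‖t‖ ^ p := by
      linarith [Real.rpow_le_one (norm_nonneg t) ht hp0.le]
    exact ⟨Real.rpow_nonneg h _, Real.rpow_inv_rpow h hp0.ne'⟩
  have hPn : ∀ t : LinearMap.ker χ, ‖t‖ ≤ 1 → ‖P t‖ = 1 ∧ χ (P t) = s t := fun t ht => by
    have hcoord : χ (P t) = s t := by simp [hP, hsp.one, LinearMap.mem_ker.1 t.2]
    refine ⟨?_, hcoord⟩
    rw [← Real.rpow_left_inj (norm_nonneg _) zero_le_one hp0.ne', Real.one_rpow,
      hsp.eq_of_coord (LinearMap.mem_ker.1 t.2), abs_of_nonneg (hsp' t ht).1, (hsp' t ht).2,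
      Submodule.coe_norm]
    ring
  set r : LinearMap.ker χ → LinearMap.ker Λ := fun t =>
    ⟨F (P t) - Λ (F (P t)) • y₀, by simp [hspY.one]⟩ with hr
  have hrd : ∀ t : LinearMap.ker χ, ‖t‖ ≤ 1 → F (P t) = (r t : Y) + s t • y₀ := fun t ht => by
    simp only [hr]
    rw [hΛ _ (hPn t ht).1, (hPn t ht).2]
    module
  have hiso' : ∀ u v : LinearMap.ker χ, ‖u‖ ≤ 1 → ‖v‖ ≤ 1 → ‖r u - r v‖ = ‖u - v‖ := by
    intro u v hu hv
    have h := hiso _ _ (hPn u hu).1 (hPn v hv).1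
    rw [hrd u hu, hrd v hv] at h
    simp only [hP] at h
    rw [show (r u : Y) + s u • y₀ - ((r v : Y) + s v • y₀)
        = ((r u - r v : LinearMap.ker Λ) : Y) + (s u - s v) • y₀ by
          rw [Submodule.coe_sub]; module,
      show (u : X) + s u • N - ((v : X) + s v • N)
        = ((u - v : LinearMap.ker χ) : X) + (s u - s v) • N by
          rw [Submodule.coe_sub]; module] at h
    have h' := congrArg (fun a : ℝ => a ^ p) h
    simp only [hspY.eq_of_coord (LinearMap.mem_ker.1 (r u - r v).2),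
      hsp.eq_of_coord (LinearMap.mem_ker.1 (u - v).2), add_left_inj] at h'
    exact (Real.rpow_left_inj (norm_nonneg _) (norm_nonneg _) hp0.ne').1 h'
  have hn' : ∀ t : LinearMap.ker χ, ‖t‖ ≤ 1 → ‖r t‖ = ‖t‖ := by
    intro t ht
    have h := congrArg (fun a : ℝ => a ^ p) (hn _ (hPn t ht).1)
    simp only [hrd t ht, hspY.eq_of_coord (LinearMap.mem_ker.1 (r t).2),
      abs_of_nonneg (hsp' t ht).1, (hsp' t ht).2, Real.one_rpow] at h
    refine (Real.rpow_left_inj (norm_nonneg _) (norm_nonneg _) hp0.ne').1 ?_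
    simp only [Submodule.coe_norm] at h ⊢
    linarith
  have hsurj' : ∀ b : LinearMap.ker Λ, ‖b‖ ≤ 1 → ∃ t : LinearMap.ker χ, ‖t‖ ≤ 1 ∧ r t = b := by
    intro b hb
    have hb' : 0 ≤ 1 - ‖b‖ ^ p := by linarith [Real.rpow_le_one (norm_nonneg b) hb hp0.le]
    set σ := (1 - ‖b‖ ^ p) ^ p⁻¹ with hσ
    have hσ0 : 0 ≤ σ := Real.rpow_nonneg hb' _
    have hσp : σ ^ p = 1 - ‖b‖ ^ p := Real.rpow_inv_rpow hb' hp0.ne'
    have hy : ‖(b : Y) + σ • y₀‖ = 1 := by
      rw [← Real.rpow_left_inj (norm_nonneg _) zero_le_one hp0.ne', Real.one_rpow,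
        hspY.eq_of_coord (LinearMap.mem_ker.1 b.2), abs_of_nonneg hσ0, hσp, Submodule.coe_norm]
      ring
    obtain ⟨x, hx, hxy⟩ := hsurj _ hy
    have hχx : χ x = σ := by
      rw [← hΛ x hx, hxy]
      simp [hspY.one, LinearMap.mem_ker.1 b.2]
    set t : LinearMap.ker χ := ⟨x - σ • N, by simp [hsp.one, hχx]⟩ with ht
    have htp : ‖t‖ ^ p = ‖b‖ ^ p := by
      have h := hsp.eq x
      rw [hx, Real.one_rpow, hχx, abs_of_nonneg hσ0, hσp] at h
      rw [Submodule.coe_norm]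
      change ‖x - σ • N‖ ^ p = _
      linarith
    have htb : ‖t‖ = ‖b‖ := (Real.rpow_left_inj (norm_nonneg _) (norm_nonneg _) hp0.ne').1 htp
    refine ⟨t, htb ▸ hb, Subtype.ext ?_⟩
    have hst : s t = σ := by simp only [hs, htb, hσ]
    have hPt : P t = x := by
      show (t : X) + s t • N = x
      rw [hst]
      simp only [ht]
      module
    simp only [hr, hPt, hxy]
    rw [map_add, LinearMap.mem_ker.1 b.2, map_smul, hspY.one, smul_eq_mul, mul_one, zero_add]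
    module
  obtain ⟨L, hL⟩ := exists_linear hiso' hn' hsurj'
  refine ⟨L, fun x hx hx0 t ht => ?_⟩
  have hxp := hsp.eq x
  rw [hx, Real.one_rpow, ← ht, abs_of_nonneg hx0] at hxp
  have ht1 : ‖t‖ ≤ 1 := by
    refine (Real.rpow_le_rpow_iff (norm_nonneg _) zero_le_one hp0).1 ?_
    rw [Real.one_rpow, Submodule.coe_norm]
    linarith [Real.rpow_nonneg hx0 p]
  have hst : s t = χ x := by
    simp only [hs]
    rw [Submodule.coe_norm, show 1 - ‖(t : X)‖ ^ p = χ x ^ p by linarith,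
      Real.rpow_rpow_inv hx0 hp0.ne']
  have hPt : P t = x := by
    simp only [hP, hst, ht]
    module
  have h := hrd t ht1
  rwa [hPt, hst, hL t ht1] at h

/-- The Mazur-Ulam property of a split space in infinite dimension. -/
theorem exists_extension (hp : 1 < p) (hsp : Split p N χ) (hinf : ¬ FiniteDimensional ℝ X)
    (f : sphere (0 : X) 1 → sphere (0 : Y) 1) (hf : Isometry f) (hs : Function.Surjective f) :
    ∃ T : X ≃ₗᵢ[ℝ] Y, ∀ x : sphere (0 : X) 1, T (x : X) = (f x : Y) := by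
  have hp0 : 0 < p := by linarith
  set g := Function.surjInv hs with hg
  have hfg : ∀ w, f (g w) = w := Function.surjInv_eq hs
  have hgf : ∀ u, g (f u) = u := fun u => hf.injective (hfg (f u))
  have hgi : Isometry g := Isometry.of_dist_eq fun a b => by rw [← hf.dist_eq, hfg, hfg]
  have hgs : Function.Surjective g := fun x => ⟨f x, hgf x⟩
  have hinfY : ¬ FiniteDimensional ℝ Y := fun _ =>
    hinf (finiteDimensional_of_sphere_image g hgi hgs)
  set F := homExt f with hF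
  set Q := homExt g with hQ
  have hQF : ∀ x, Q (F x) = x := homExt_homExt f hgf
  have hFQ : ∀ y, F (Q y) = y := homExt_homExt g hfg
  have hnF : ∀ u, ‖u‖ = 1 → ‖F u‖ = 1 := fun u hu => by rw [hF, norm_homExt, hu]
  have hnQ : ∀ u, ‖u‖ = 1 → ‖Q u‖ = 1 := fun u hu => by rw [hQ, norm_homExt, hu]
  have hiso : ∀ u v, ‖u‖ = 1 → ‖v‖ = 1 → ‖F u - F v‖ = ‖u - v‖ := fun u v hu hv => by
    have h := hf.dist_eq ⟨u, mem_sphere_zero_iff_norm.2 hu⟩ ⟨v, mem_sphere_zero_iff_norm.2 hv⟩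
    rw [Subtype.dist_eq, Subtype.dist_eq, dist_eq_norm, dist_eq_norm,
      ← homExt_sphere, ← homExt_sphere] at h
    exact h
  have hisoQ : ∀ u v, ‖u‖ = 1 → ‖v‖ = 1 → ‖Q u - Q v‖ = ‖u - v‖ := fun u v hu hv => by
    rw [← hiso _ _ (hnQ u hu) (hnQ v hv), hFQ, hFQ]
  have hsurjQ : ∀ x, ‖x‖ = 1 → ∃ u, ‖u‖ = 1 ∧ Q u = x := fun x hx => ⟨F x, hnF x hx, hQF x⟩
  -- the coordinate read through the inverse is linear
  let χc : X →L[ℝ] ℝ := χ.mkContinuous 1 fun x => by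
    rw [Real.norm_eq_abs, one_mul]; exact hsp.abs_le hp x
  obtain ⟨Λ, hΛ⟩ := linear_of_triangle_space hinfY (G := fun y => χc (Q y))
    (χc.lipschitz.comp (homExt_lipschitz g hgi))
    (fun t y ht => by simp only [hQ, homExt_smul g ht, map_smul, smul_eq_mul])
    (fun a b ha hb hab => coord_triangle hsp hp hnQ hsurjQ hisoQ ha
      ⟨hb, by rw [norm_sub_rev]; exact hab⟩)
  replace hΛ : ∀ y, χ (Q y) = Λ y := hΛ
  have hΛF : ∀ u, ‖u‖ = 1 → Λ (F u) = χ u := fun u _ => by rw [← hΛ, hQF]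
  set y₀ := F N with hy₀
  have hy1 : Λ y₀ = 1 := by rw [hy₀, hΛF N hsp.unit, hsp.one]
  have hle : ∀ y, |Λ y| ≤ ‖y‖ := fun y => by
    rw [← hΛ, ← norm_homExt g y]; exact hsp.abs_le hp _
  have hc : ∀ y, ‖y - ‖y‖ • y₀‖ ^ p = ‖y‖ ^ p - |Λ y| ^ p + (‖y‖ - Λ y) ^ p := by
    intro y
    rcases eq_or_ne y 0 with rfl | hy
    · simp [Real.zero_rpow hp0.ne']
    set r := ‖y‖ with hr
    have hr0 : 0 < r := norm_pos_iff.2 hy
    set u := r⁻¹ • y with hu
    have hyu : y = r • u := by rw [hu, smul_smul, mul_inv_cancel₀ hr0.ne', one_smul]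
    have hu1 : ‖u‖ = 1 := by
      rw [hu, norm_smul, norm_inv, Real.norm_of_nonneg hr0.le, inv_mul_cancel₀ hr0.ne']
    have hΛy : Λ y = r * Λ u := by rw [hyu, map_smul, smul_eq_mul]
    have h := hiso _ N (hnQ u hu1) hsp.unit
    rw [hFQ, ← hy₀] at h
    have h2 := hsp.eq (Q u - N)
    have h3 := hsp.eq (Q u)
    rw [map_sub, hsp.one, hΛ, show Q u - N - (Λ u - 1) • N = Q u - Λ u • N by module] at h2
    rw [hΛ, hnQ u hu1, Real.one_rpow] at h3
    have h1u : 0 ≤ 1 - Λ u := by linarith [(abs_le.1 (hle u)).2, hu1.le]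
    rw [abs_sub_comm, abs_of_nonneg h1u] at h2
    have hd : y - r • y₀ = r • (u - y₀) := by rw [hyu, smul_sub]
    rw [hd, norm_smul, Real.norm_of_nonneg hr0.le, Real.mul_rpow hr0.le (norm_nonneg _), h, h2,
      hΛy, show r - r * Λ u = r * (1 - Λ u) by ring, abs_mul, abs_of_pos hr0,
      Real.mul_rpow hr0.le (abs_nonneg _), Real.mul_rpow hr0.le h1u]
    linear_combination r ^ p * (-h3)
  have hspY : Split p y₀ Λ := split_of_pole hp hy1 (hnF N hsp.unit) hle hc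
  have hsurj : ∀ y, ‖y‖ = 1 → ∃ u, ‖u‖ = 1 ∧ F u = y := fun y hy => ⟨Q y, hnQ y hy, hFQ y⟩
  obtain ⟨L, hL⟩ := exists_half hp hsp hspY hnF hsurj hiso hΛF
  obtain ⟨L', hL'⟩ := exists_half hp hsp.neg hspY.neg hnF hsurj hiso
    (fun u hu => by simp [hΛF u hu])
  have hneg : ∀ {t : LinearMap.ker χ}, (t : X) ∈ LinearMap.ker (-χ) := fun {t} => by
    simp
  have heq : ∀ t : LinearMap.ker χ, ((L' ⟨t, hneg⟩ : LinearMap.ker (-Λ)) : Y) = (L t : Y) := by
    intro t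
    rcases eq_or_ne t 0 with rfl | ht
    · rw [show (⟨((0 : LinearMap.ker χ) : X), hneg⟩ : LinearMap.ker (-χ)) = 0 from rfl]
      simp
    have hr0 : 0 < ‖t‖ := norm_pos_iff.2 ht
    set u := ‖t‖⁻¹ • t with hu
    have hu1 : ‖(u : X)‖ = 1 := by
      rw [← Submodule.coe_norm, hu, norm_smul, norm_inv, norm_norm, inv_mul_cancel₀ hr0.ne']
    have hχu : χ (u : X) = 0 := LinearMap.mem_ker.1 u.2
    have a1 := hL u hu1 hχu.ge u (by rw [hχu]; module)
    have a2 := hL' u hu1 (by simp [hχu]) ⟨u, hneg⟩ (by simp [hχu])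
    simp only [LinearMap.neg_apply, hχu, neg_zero, zero_smul, add_zero] at a1 a2
    have a3 : ((L' ⟨u, hneg⟩ : LinearMap.ker (-Λ)) : Y) = (L u : Y) := a2.symm.trans a1
    have hut : (⟨t, hneg⟩ : LinearMap.ker (-χ)) = ‖t‖ • ⟨u, hneg⟩ := by
      ext
      simp [hu, smul_smul, mul_inv_cancel₀ (show ‖(t : X)‖ ≠ 0 from hr0.ne')]
    have ht' : t = ‖t‖ • u := by rw [hu, smul_smul, mul_inv_cancel₀ hr0.ne', one_smul]
    rw [hut, map_smul, Submodule.coe_smul, a3]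
    conv_rhs => rw [ht', map_smul, Submodule.coe_smul]
  let π : X →ₗ[ℝ] LinearMap.ker χ := (LinearMap.id - χ.smulRight N).codRestrict _ fun x => by
    simp [hsp.one]
  let T₀ : X →ₗ[ℝ] Y := (LinearMap.ker Λ).subtype.comp (L.comp π) + χ.smulRight y₀
  have hT : ∀ x, ‖x‖ = 1 → T₀ x = F x := by
    intro x hx
    have e : T₀ x = (L (π x) : Y) + χ x • y₀ := by simp [T₀]
    have hπ : ((π x : LinearMap.ker χ) : X) = x - χ x • N := by
      show ((LinearMap.id : X →ₗ[ℝ] X) - χ.smulRight N : X →ₗ[ℝ] X) x = _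
      simp
    rw [e]
    rcases le_total 0 (χ x) with h0 | h0
    · exact (hL x hx h0 (π x) hπ).symm
    · have h := hL' x hx (by simpa using h0) ⟨π x, hneg⟩ (by
        show ((π x : LinearMap.ker χ) : X) = x - (-χ) x • -N
        rw [hπ, LinearMap.neg_apply, neg_smul_neg])
      rw [heq] at h
      rw [h, LinearMap.neg_apply, neg_smul_neg]
  have hTF : ∀ x, T₀ x = F x := fun x => by
    rcases eq_or_ne x 0 with rfl | hx
    · rw [map_zero, hF, homExt_zero]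
    obtain ⟨u, hu⟩ := exists_polar hx
    rw [hu, map_smul, hT _ (mem_sphere_zero_iff_norm.1 u.2), hF, homExt_smul f (norm_nonneg x)]
  refine ⟨LinearIsometryEquiv.ofSurjective
    { toLinearMap := T₀, norm_map' := fun x => by rw [hTF]; exact norm_homExt f x }
    (fun y => ⟨Q y, by simp [hTF, hFQ]⟩), fun x => ?_⟩
  change T₀ (x : X) = _
  rw [hTF]
  exact homExt_sphere f x

end Vale.Agent.P084.Slice
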